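import Vale.Agent.P352X.R.CONK.Ann
import Vale.Agent.P352X.R.CONK.Ub

/-!
# P352X, block CONK, row A3: norms of modulated test functions
-/

set_option linter.all false

open MeasureTheory Filter Topology Set
open scoped ContDiff SchwartzMap

namespace Vale.Agent.P352X.CK.A3p

open Vale.Agent.P352 Vale.Agent.P352.GF Vale.Agent.P352.BW Vale.Agent.P352.H246
open Vale.Agent.P352.H496 Vale.Agent.P352.H755
open UniformSpace (Completion)

noncomputable section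

theorem n2_nonneg {α : Type*} [MeasureSpace α] (f : α → ℂ) : 0 ≤ n2 f := Real.sqrt_nonneg _

theorem n2_le {α : Type*} [MeasureSpace α] {f : α → ℝ} {S : Set α} {M v : ℝ}
    (hv : volume S ≤ ENNReal.ofReal (v ^ 2)) (hv0 : 0 ≤ v) (hM0 : 0 ≤ M) (hM : ∀ x, |f x| ≤ M)
    (h0 : ∀ x, f x ≠ 0 → x ∈ S) : n2 (cx f) ≤ M * v := by
  refine Real.sqrt_le_iff.2 ⟨by positivity, ?_⟩
  rw [← setIntegral_eq_integral_of_forall_compl_eq_zero (s := S) fun x hx => by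
    simp [cx, not_not.1 (mt (h0 x) hx)]]
  refine (Real.le_norm_self _).trans ((norm_setIntegral_le_of_norm_le_const (C := M ^ 2)
    (hv.trans_lt ENNReal.ofReal_lt_top) fun x _ => ?_).trans ?_)
  · rw [norm_pow, norm_norm, cx, Complex.norm_real]
    exact pow_le_pow_left₀ (norm_nonneg _) (hM x) 2
  · rw [mul_pow]
    exact mul_le_mul_of_nonneg_left (ENNReal.toReal_le_of_le_ofReal (by positivity) hv)
      (by positivity)

theorem n2_Icc {f : ℝ → ℝ} {M R δ : ℝ} (hδ : 0 < δ) (hR : 1 ≤ R) (hM0 : 0 ≤ M)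
    (hM : ∀ x, |f x| ≤ M / δ) (h0 : ∀ x, f x ≠ 0 → |x| ≤ R * δ) :
    n2 (cx f) ≤ 2 * R * M / Real.sqrt δ := by
  have hs := Real.sqrt_pos.2 hδ
  refine (n2_le (S := Icc (-(R * δ)) (R * δ)) (v := 2 * R * Real.sqrt δ) ?_ (by positivity)
    (by positivity) hM fun x h => abs_le.1 (h0 x h)).trans_eq ?_
  · rw [Real.volume_Icc, mul_pow, Real.sq_sqrt hδ.le]
    exact ENNReal.ofReal_le_ofReal (by nlinarith [mul_pos (one_pos.trans_le hR) hδ])
  · field_simp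
    rw [Real.sq_sqrt hδ.le]

/-- the derivative along `al` -/
def dR (g : P3 → ℝ) : P3 → ℝ := fun y => fderiv ℝ g y (1, 0)

theorem tst_dR {g : P3 → ℝ} (h : Tst g) : Tst (dR g) := Ap.cs_fderiv _ h

theorem fd_mul {A : Type*} [NormedCommRing A] [NormedAlgebra ℝ A] {p : R2 → A} {g : P3 → A}
    (hp : Differentiable ℝ p) (hg : Differentiable ℝ g) (y : P3) :
    fderiv ℝ (fun y => p y.2 * g y) y (1, 0) = p y.2 * fderiv ℝ g y (1, 0) := by
  have h1 : HasFDerivAt (fun y : P3 => p y.2) _ y :=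
    (hp _).hasFDerivAt.comp y (hasFDerivAt_snd (𝕜 := ℝ))
  rw [(h1.fun_mul (hg y).hasFDerivAt).fderiv]
  simp

theorem dR_wt {p : R2 → ℝ} {g : P3 → ℝ} (hp : ContDiff ℝ ∞ p) (hg : Tst g) :
    dR (wt p g) = wt p (dR g) :=
  funext (fd_mul (hp.differentiable (by simp)) (hg.1.differentiable (by simp)))

theorem dR_kL {g : P3 → ℝ} (hg : Tst g) (A : ℝ) :
    dR (kL g A) = wt (fun _ => A⁻¹) (kL (dR g) A) :=
  funext (Ap.da_kL (hg.1.differentiable (by simp)) A)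

/-- modulation -/
def md (l : R2 →L[ℝ] ℝ) (g : P3 → ℝ) : P3 → ℂ := fun y => ST.pw l y.2 * cx g y

theorem smooth_pw (l : R2 →L[ℝ] ℝ) : ContDiff ℝ ∞ (ST.pw l) := (ST.temperate_pw l).1

theorem dc_md (l : R2 →L[ℝ] ℝ) {g : P3 → ℝ} (hg : Tst g) : Dc (md l g) :=
  Ap.cs_mul_l ((smooth_pw l).comp contDiff_snd) (Ap.dc_cx hg)

theorem da_md (l : R2 →L[ℝ] ℝ) {g : P3 → ℝ} (hg : Tst g) : da (md l g) = md l (dR g) :=
  funext fun y => (fd_mul ((smooth_pw l).differentiable (by simp))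
    ((Ap.dc_cx hg).1.differentiable (by simp)) y).trans
      (congrArg _ (Ap.fderiv_cx (hg.1.differentiable (by simp) y) _))

theorem n2_md (l : R2 →L[ℝ] ℝ) (g : P3 → ℝ) : n2 (md l g) = n2 (cx g) := by
  simp only [n2, md, norm_mul, ST.norm_pw, one_mul]

theorem bar_md (l : R2 →L[ℝ] ℝ) (g : P3 → ℝ) (φ : ℝ → ℝ) :
    bar (pf (md l g) (cx φ)) = pf (md (-l) g) (cx φ) := by
  funext z
  simp [bar, pf, md, cx, ST.pw, ← Complex.exp_conj]

theorem in_md (l : R2 →L[ℝ] ℝ) {g : P3 → ℝ} {φ : ℝ → ℝ} {O : Set V} (hg : Tst g) (hφ : Tst φ)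
    (h : ∀ z, pl z ∈ tsupport g → be z ∈ tsupport φ → z ∈ O) : In O (pf (md l g) (cx φ)) := by
  have : pf (md l g) (cx φ) = fun z => ST.pw l (tx z) * pr g φ z := by
    funext z
    simp [pf, md, cx, pr, pl, mul_assoc]
  rw [this]
  exact Ap.in_mul ((smooth_pw l).comp smooth_tx) (Ap.in_pr hg hφ h)

theorem deriv_cx {φ : ℝ → ℝ} (h : Tst φ) : deriv (cx φ) = cx (deriv φ) :=
  funext fun t => (h.1.differentiable (by simp) t).hasDerivAt.ofReal_comp.deriv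

variable {D : Type*} [NormedAddCommGroup D] [InnerProductSpace ℂ D] {c : Ctx D}

/-- the commutator of two modulated fields against an operator to the right -/
theorem com_le (t : Tools c) : ∃ C : ℝ, 0 ≤ C ∧ ∀ W (a u0 : ℝ) y r X (g f : P3 → ℝ) (ρ φ : ℝ → ℝ)
    (l l' : R2 →L[ℝ] ℝ) (F : S2), IsW c W → dc y r ⊆ {z | be z < -u0 ∧ a < al z} →
    X ∈ c.N (dc y r) → Tst g → Tst f → Tst ρ → Tst φ → tsupport g ⊆ {y | y.1 < a} →
    tsupport f ⊆ {y | y.1 < a} → tsupport ρ ⊆ Ioi (-u0) → tsupport φ ⊆ Ioi (-u0) →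
    (∀ x y, F (x, y) = pf (md l g) (cx ρ) x * pf (md l' f) (cx φ) y) →
    ‖inner ℂ (X c.Om) ((w0L W - w1L W) F)‖ ≤ C * ‖X‖ * (n2 (cx (dR (dR g))) * n2 (cx ρ)) *
      (n2 (cx (dR f)) * n2 (cx (deriv φ))) := by
  obtain ⟨C, C0, hn⟩ := t.norm
  refine ⟨2 * C * C, by positivity,
    fun W a u0 y r X g f ρ φ l l' F hW hO hX hg hf hρ hφ sg sf sρ sφ e => ?_⟩
  have i1 : ∀ l, In {z | al z < a ∧ -u0 < be z} (pf (md l g) (cx ρ)) := fun l =>
    in_md l hg hρ fun z h1 h2 => ⟨sg h1, sρ h2⟩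
  have i2 : ∀ l, In {z | al z < a ∧ -u0 < be z} (pf (md l f) (cx φ)) := fun l =>
    in_md l hf hφ fun z h1 h2 => ⟨sf h1, sφ h2⟩
  have n1 : ∀ l, ‖((Taa c (pf (md l g) (cx ρ)) c.Q.vac : D) : Completion D)‖ ≤
      C * n2 (cx (dR (dR g))) * n2 (cx ρ) := fun l => by
    have := (hn _ (cx ρ) (dc_md l hg) (Ap.dc_cx hρ)).1
    rwa [da_md l hg, da_md l (tst_dR hg), n2_md] at this
  have n2' : ∀ l, ‖((c.Thf (pf (md l f) (cx φ)) c.Q.vac : D) : Completion D)‖ ≤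
      C * n2 (cx (dR f)) * n2 (cx (deriv φ)) := fun l => by
    have := (hn _ (cx φ) (dc_md l hf) (Ap.dc_cx hφ)).2.2
    rwa [da_md l hf, n2_md, deriv_cx hφ] at this
  obtain ⟨p1, p2⟩ := t.cv.prod W _ _ F hW (i1 l).1 (i2 l').1 e
  have q1 := (t.tri.op a u0 y r X _ (c.Thf (pf (md l' f) (cx φ)) c.Q.vac) c.Q.vac hO hX (i1 (-l))).2
  have q2 := (t.tri.op a u0 y r X _ (Taa c (pf (md l g) (cx ρ)) c.Q.vac) c.Q.vac hO hX (i2 (-l'))).1
  rw [bar_md, neg_neg] at q1 q2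
  rw [norm_inner_symm, ContinuousLinearMap.sub_apply, p1, p2, inner_sub_left]
  have b : ∀ u v : Completion D, ‖inner ℂ u (X v)‖ ≤ ‖u‖ * (‖X‖ * ‖v‖) := fun u v =>
    (norm_inner_le_norm _ _).trans (mul_le_mul_of_nonneg_left (X.le_opNorm v) (norm_nonneg _))
  have := n2_nonneg (cx (dR (dR g)))
  have := n2_nonneg (cx ρ)
  have := n2_nonneg (cx (dR f))
  have := n2_nonneg (cx (deriv φ))
  refine (norm_sub_le_of_le ((congrArg norm q1).trans_le ((b _ _).trans (mul_le_mul (n2' _)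
    (mul_le_mul_of_nonneg_left (n1 _) (norm_nonneg X)) (by positivity) (by positivity))))
    ((congrArg norm q2).trans_le ((b _ _).trans (mul_le_mul (n1 _)
    (mul_le_mul_of_nonneg_left (n2' _) (norm_nonneg X)) (by positivity)
      (by positivity))))).trans_eq (by ring)

/-! ### the three norms -/

theorem n2_plane {g : P3 → ℝ} {u : R2 → ℝ} (hg : Tst g) (hu : Tst u) : ∃ C, 0 ≤ C ∧ ∀ A s : ℝ,
    0 < A → 0 < s → n2 (cx (dR (dR (wt (fun x => u (s⁻¹ • x)) (kL g A))))) ≤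
      C * (s * Real.sqrt A / A ^ 2) := by
  obtain ⟨M, M0, hM⟩ := Ap.cs_bd0 (tst_dR (tst_dR hg))
  obtain ⟨N, N0, hN⟩ := Ap.cs_bd0 hu
  obtain ⟨R, R0, hR⟩ := ex_R (tst_dR (tst_dR hg))
  obtain ⟨r, r0, hr⟩ := ex_R hu
  refine ⟨N * M * (Real.sqrt (2 * R) * (2 * r)), by positivity, fun A s hA hs => ?_⟩
  have us : ContDiff ℝ ∞ fun x => u (s⁻¹ • x) := hu.1.comp (contDiff_const_smul _)
  rw [dR_wt us (Ap.tst_kL hg hA), dR_kL hg, dR_wt us (tst_wt contDiff_const (Ap.tst_kL (tst_dR hg) hA)),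
    dR_wt contDiff_const (Ap.tst_kL (tst_dR hg) hA), dR_kL (tst_dR hg)]
  refine (n2_le (S := Icc (-(R * A)) (R * A) ×ˢ Metric.closedBall 0 (r * s))
    (M := N * (A⁻¹ * (A⁻¹ * M))) (v := Real.sqrt (2 * R) * Real.sqrt A * (2 * (r * s))) ?_
    (by positivity) (by positivity) (fun y => ?_) fun y h => ⟨?_, ?_⟩).trans_eq (by field_simp)
  · rw [Measure.volume_eq_prod, Measure.prod_prod, Real.volume_Icc,
      Real.volume_pi_closedBall _ (by positivity), ← ENNReal.ofReal_mul (by nlinarith [mul_pos R0 hA]),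
      Fintype.card_fin, mul_pow (_ * Real.sqrt A), mul_pow (Real.sqrt _), Real.sq_sqrt hA.le,
      Real.sq_sqrt (by positivity)]
    exact le_of_eq (congrArg _ (by ring))
  · simp only [wt, abs_mul, abs_of_pos (inv_pos.2 hA)]
    gcongr
    exacts [hN _, hM _]
  · have : |y.1 / A| ≤ R := (norm_fst_le (_, _)).trans (hR _ (subset_tsupport _
      (right_ne_zero_of_mul (right_ne_zero_of_mul (right_ne_zero_of_mul h)))))
    rwa [abs_div, abs_of_pos hA, div_le_iff₀ hA, abs_le] at this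
  · have := hr _ (subset_tsupport _ (left_ne_zero_of_mul h))
    rwa [norm_smul, norm_inv, Real.norm_of_nonneg hs.le, inv_mul_le_iff₀' hs,
      ← mem_closedBall_zero_iff] at this

theorem n2_dlt {ρ : ℝ → ℝ} (h : Tst ρ) : ∃ C, 0 ≤ C ∧ ∀ δ : ℝ, 0 < δ →
    n2 (cx (dlt δ ρ)) ≤ C / Real.sqrt δ := by
  obtain ⟨M, M0, hM⟩ := Ap.cs_bd0 h
  obtain ⟨R, R1, hR⟩ := Ap.ex_Icc h
  refine ⟨2 * R * M, by positivity, fun δ hδ => n2_Icc hδ R1 M0 (fun x => ?_) fun x hx =>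
    abs_dlt hR hδ (tsupport_dlt ρ δ (subset_tsupport _ hx))⟩
  rw [dlt, abs_div, abs_of_pos hδ]
  exact div_le_div_of_nonneg_right (hM _) hδ.le

theorem n2_thn {θ1 θ : ℝ → ℝ} (h1 : Tst θ1) (h : Tst θ) : ∃ C, 0 ≤ C ∧ ∀ δ : ℝ, 0 < δ → δ ≤ 1 →
    n2 (cx (deriv (thn θ1 θ δ))) ≤ C / Real.sqrt δ := by
  obtain ⟨M1, M10, hM1⟩ := Ap.cs_bd0 h1
  obtain ⟨M2, M20, hM2⟩ := Ap.cs_bd0 (Ap.cs_deriv h1)
  obtain ⟨M3, M30, hM3⟩ := Ap.cs_bd0 h
  obtain ⟨M4, M40, hM4⟩ := Ap.cs_bd0 (Ap.cs_deriv h)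
  obtain ⟨R, R1, hR⟩ := Ap.ex_Icc h
  refine ⟨2 * R * (M2 * M3 + M1 * M4), by positivity, fun δ hδ hδ1 => n2_Icc hδ R1 (by positivity)
    (fun x => ?_) fun x hx => abs_dlt hR hδ
      (tsupport_thn θ1 θ δ (support_deriv_subset hx)).2⟩
  have e : deriv (thn θ1 θ δ) x = deriv θ1 x * θ (x / δ) + θ1 x * (deriv θ (x / δ) / δ) := by
    rw [← Ap.deriv_dil]
    exact deriv_fun_mul (h1.1.differentiable (by simp) x)
      ((Ap.smooth_dil h.1 δ).differentiable (by simp) x)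
  rw [e, add_div]
  refine (abs_add_le _ _).trans (add_le_add ?_ ?_)
  · rw [abs_mul]
    exact (mul_le_mul (hM2 _) (hM3 _) (abs_nonneg _) M20).trans (le_div_self (by positivity) hδ hδ1)
  · rw [abs_mul, abs_div, abs_of_pos hδ, mul_div_assoc]
    exact mul_le_mul (hM1 _) (div_le_div_of_nonneg_right (hM4 _) hδ.le) (by positivity) M10

end

end Vale.Agent.P352X.CK.A3p
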